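import Vale.Agent.P075.R.H97.Cal

/-!
# P141, block B10, piece (b4): from the single scale forms of four variables to the truncated kernel
-/

namespace Vale.Agent.P141.PL.H245

open MeasureTheory Filter Topology Vale.Agent.P075.R Vale.Agent.P075.R.H97

/-- single scale form at scale `t`, offset `o` -/
noncomputable def A4 (w : ℝ → ℝ) (o t : ℝ) : ℝ :=
  ∫ p in (0 : ℝ)..1, ∫ q in (0 : ℝ)..1, ∫ z in (0 : ℝ)..1, ∫ s in (0 : ℝ)..1,
    rho p * rho q * rho z * rho s * w (t * (p + q + z + s - 2 + o))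

/-- the second difference, divided by the scale -/
noncomputable def Dt (t : ℝ) (f : ℝ → ℝ) (y : ℝ) : ℝ := -(f y - 2 * f (y + t / 2) + f (y + t)) / t

lemma Dt_cont (t : ℝ) {f : ℝ → ℝ} (hf : Continuous f) : Continuous (Dt t f) := by
  unfold Dt
  fun_prop

lemma Dt_deriv (t : ℝ) {f F : ℝ → ℝ} (h : ∀ y, HasDerivAt F (f y) y) (y : ℝ) :
    HasDerivAt (Dt t F) (Dt t f y) y := by
  have a1 := h y
  have a2 := (h (y + t / 2)).comp_add_const y (t / 2)
  have a3 := (h (y + t)).comp_add_const y t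
  exact (((a1.sub (a2.const_mul 2)).add a3).neg).div_const t

lemma rho_int' {g G : ℝ → ℝ} (hg : Continuous g) (hG : ∀ y, HasDerivAt G (g y) y)
    {t : ℝ} (ht : t ≠ 0) (x : ℝ) :
    ∫ z in (0 : ℝ)..1, rho z * g (t * (x + z)) = Dt t G (t * x) := by
  rw [rho_int hg hG ht, Dt]
  rw [show t * (x + 1 / 2) = t * x + t / 2 by ring, show t * (x + 1) = t * x + t by ring]

section

variable {w : ℝ → ℝ}

/-- fourth primitive of `w` -/
noncomputable def V4 (w : ℝ → ℝ) : ℝ → ℝ := prim (prim (prim (prim w)))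

lemma A4_eq_Dt (hw : Continuous w) (o : ℝ) {t : ℝ} (ht : t ≠ 0) :
    A4 w o t = Dt t (Dt t (Dt t (Dt t (V4 w)))) (t * (o - 2)) := by
  have hw1 := prim_cont hw
  have hw2 := prim_cont hw1
  have hw3 := prim_cont hw2
  have d1 := fun y => prim_hasDeriv hw y
  have d2 := fun y => prim_hasDeriv hw1 y
  have d3 := fun y => prim_hasDeriv hw2 y
  have d4 : ∀ y, HasDerivAt (V4 w) (prim (prim (prim w)) y) y := fun y => prim_hasDeriv hw3 y
  have s1 : ∀ p q z : ℝ, ∫ s in (0 : ℝ)..1, rho p * rho q * rho z * rho s *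
      w (t * (p + q + z + s - 2 + o)) =
      rho p * rho q * (rho z * Dt t (prim w) (t * ((p + q - 2 + o) + z))) := by
    intro p q z
    rw [show (p + q - 2 + o) + z = p + q + z - 2 + o by ring, ← rho_int' hw d1 ht,
      ← intervalIntegral.integral_const_mul, ← intervalIntegral.integral_const_mul]
    refine intervalIntegral.integral_congr fun s _ => ?_
    rw [show p + q + z + s - 2 + o = p + q + z - 2 + o + s by ring]
    ring
  have s2 : ∀ p q : ℝ, ∫ z in (0 : ℝ)..1,
      rho p * rho q * (rho z * Dt t (prim w) (t * ((p + q - 2 + o) + z))) =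
      rho p * (rho q * Dt t (Dt t (prim (prim w))) (t * ((p - 2 + o) + q))) := by
    intro p q
    rw [intervalIntegral.integral_const_mul, rho_int' (Dt_cont t hw1) (Dt_deriv t d2) ht,
      show (p - 2 + o) + q = p + q - 2 + o by ring]
    ring
  have s3 : ∀ p : ℝ, ∫ q in (0 : ℝ)..1,
      rho p * (rho q * Dt t (Dt t (prim (prim w))) (t * ((p - 2 + o) + q))) =
      rho p * Dt t (Dt t (Dt t (prim (prim (prim w))))) (t * ((o - 2) + p)) := by
    intro p
    rw [intervalIntegral.integral_const_mul,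
      rho_int' (Dt_cont t (Dt_cont t hw2)) (Dt_deriv t (Dt_deriv t d3)) ht,
      show (o - 2) + p = p - 2 + o by ring]
  unfold A4
  simp only [s1, s2, s3]
  exact rho_int' (Dt_cont t (Dt_cont t (Dt_cont t hw3)))
    (Dt_deriv t (Dt_deriv t (Dt_deriv t d4))) ht _

/-- fourth primitive of the odd part -/
noncomputable def U4 (w : ℝ → ℝ) : ℝ → ℝ := prim (U3 w)

lemma U4_eq (hw : Continuous w) (y : ℝ) : U4 w y = V4 w y - V4 w (-y) := by
  have h3 : ∀ y, U3 w y = V3 w y + V3 w (-y) := U3_eq hw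
  exact prim_neg_odd h3 (prim_cont (prim_cont (prim_cont hw))) y

lemma U4_cont (hw : Continuous w) : Continuous (U4 w) := prim_cont (U3_cont hw)

lemma A4_diff (hw : Continuous w) {t : ℝ} (ht : t ≠ 0) :
    A4 w 1 t - A4 w (-1) t = (U4 w (3 * t) - 8 * U4 w (5 / 2 * t) + 28 * U4 w (2 * t)
      - 56 * U4 w (3 / 2 * t) + 69 * U4 w (1 * t) - 48 * U4 w (1 / 2 * t)) / t ^ 4 := by
  rw [A4_eq_Dt hw _ ht, A4_eq_Dt hw _ ht]
  simp only [U4_eq hw, Dt]
  generalize V4 w = V
  ring_nf

lemma U4_bound {S : ℝ} (hS : ∀ u, |w u| ≤ S) {y : ℝ} (hy : 0 ≤ y) :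
    |U4 w y| ≤ S / 12 * y ^ 4 := by
  have := prim_bound (f := U3 w) (c := S / 3) (n := 3) hy (fun x hx => by
    simpa using U3_bound hS hx)
  refine this.trans (le_of_eq ?_)
  push_cast
  ring

/-- integration by parts, four times -/
lemma parts4 (hw : Continuous w) {a b : ℝ} (ha : 0 < a) (hb : 0 < b) :
    (∫ y in a..b, od w y / y) = 24 * (∫ y in a..b, U4 w y / y ^ 5)
      + (6 * U4 w b / b ^ 4 + 2 * U3 w b / b ^ 3 + prim (prim (od w)) b / b ^ 2 + prim (od w) b / b)
      - (6 * U4 w a / a ^ 4 + 2 * U3 w a / a ^ 3 + prim (prim (od w)) a / a ^ 2 +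
        prim (od w) a / a) := by
  have ho := od_cont hw
  have h1 := fun y => prim_hasDeriv ho y
  have h2 := fun y => prim_hasDeriv (prim_cont ho) y
  have h3 : ∀ y, HasDerivAt (U3 w) (prim (prim (od w)) y) y :=
    fun y => prim_hasDeriv (prim_cont (prim_cont ho)) y
  have h4 : ∀ y, HasDerivAt (U4 w) (U3 w y) y := fun y => prim_hasDeriv (U3_cont hw) y
  have hi1 : IntervalIntegrable (fun y => od w y / y) volume a b := by
    simpa using ii_div ho 1 ha hb
  have hi2 := ii_div (U4_cont hw) 5 ha hb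
  have key : ∫ y in a..b, (od w y / y - 24 * (U4 w y / y ^ 5))
      = (6 * U4 w b / b ^ 4 + 2 * U3 w b / b ^ 3 + prim (prim (od w)) b / b ^ 2 +
        prim (od w) b / b)
      - (6 * U4 w a / a ^ 4 + 2 * U3 w a / a ^ 3 + prim (prim (od w)) a / a ^ 2 +
        prim (od w) a / a) := by
    refine intervalIntegral.integral_eq_sub_of_hasDerivAt
      (f := fun y => 6 * U4 w y / y ^ 4 + 2 * U3 w y / y ^ 3 + prim (prim (od w)) y / y ^ 2 +
        prim (od w) y / y)
      (fun y hy => ?_) (hi1.sub (hi2.const_mul 24))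
    have hy0 : 0 < y := lt_of_lt_of_le (lt_min ha hb) hy.1
    have e0 := ((h4 y).const_mul 6).div (hasDerivAt_pow 4 y) (by positivity)
    have e1 := ((h3 y).const_mul 2).div (hasDerivAt_pow 3 y) (by positivity)
    have e2 := (h2 y).div (hasDerivAt_pow 2 y) (by positivity)
    have e3 := (h1 y).div (hasDerivAt_id y) hy0.ne'
    refine (((e0.add e1).add e2).add e3).congr_deriv ?_
    simp only [id]
    field_simp
    norm_num
    ring
  rw [intervalIntegral.integral_sub hi1 (hi2.const_mul 24), intervalIntegral.integral_const_mul]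
    at key
  linarith

/-- short integrals -/
lemma short4 {S : ℝ} (hS : ∀ u, |w u| ≤ S) {a b : ℝ} (ha : 0 < a)
    (hab : a ≤ b) : |∫ y in a..b, U4 w y / y ^ 5| ≤ S / 12 * ((b - a) / a) := by
  have hS0 : 0 ≤ S := (abs_nonneg _).trans (hS 0)
  have := intervalIntegral.norm_integral_le_of_norm_le_const (a := a) (b := b)
    (f := fun y => U4 w y / y ^ 5) (C := S / 12 / a) (fun y hy => by
      rw [Set.uIoc_of_le hab] at hy
      have hy0 : 0 < y := ha.trans hy.1
      rw [Real.norm_eq_abs, abs_div, abs_of_pos (by positivity : 0 < y ^ 5),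
        div_le_div_iff₀ (by positivity) ha]
      have := U4_bound hS hy0.le
      calc |U4 w y| * a ≤ (S / 12 * y ^ 4) * a := mul_le_mul_of_nonneg_right this ha.le
        _ ≤ (S / 12 * y ^ 4) * y := mul_le_mul_of_nonneg_left hy.1.le (by positivity)
        _ = S / 12 * y ^ 5 := by ring)
  rw [Real.norm_eq_abs, abs_of_nonneg (sub_nonneg.2 hab)] at this
  refine this.trans (le_of_eq ?_)
  field_simp

lemma scale4 (c : ℝ) (hc : 0 < c) {a b : ℝ} :
    (∫ t in a..b, U4 w (c * t) / t ^ 5) = c ^ 4 * ∫ y in (c * a)..(c * b), U4 w y / y ^ 5 := by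
  have h := intervalIntegral.integral_comp_mul_left (a := a) (b := b)
    (fun y => U4 w y / y ^ 5) hc.ne'
  have e : (fun t => U4 w (c * t) / t ^ 5) = fun t => c ^ 5 * (U4 w (c * t) / (c * t) ^ 5) := by
    funext t
    by_cases ht : t = 0
    · simp [ht]
    · field_simp
  rw [e, intervalIntegral.integral_const_mul, h, smul_eq_mul]
  field_simp

/-- the integral at a dilated scale, compared with the integral from `ε` to `R` -/
lemma dil {S : ℝ} (hw : Continuous w) (hS : ∀ u, |w u| ≤ S) {a b c : ℝ} (ha : 0 < a) (hb : 0 < b)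
    (hc : 1 / 2 ≤ c) (hc' : c ≤ 3) :
    |(∫ t in a..b, U4 w (c * t) / t ^ 5) - c ^ 4 * ∫ y in a..b, U4 w y / y ^ 5| ≤ 27 * S := by
  have hS0 : 0 ≤ S := (abs_nonneg _).trans (hS 0)
  have hc0 : 0 < c := lt_of_lt_of_le (by norm_num) hc
  have hU := U4_cont hw
  have ii : ∀ {a b : ℝ}, 0 < a → 0 < b → IntervalIntegrable (fun y => U4 w y / y ^ 5) volume a b :=
    fun ha hb => ii_div hU 5 ha hb
  rw [scale4 c hc0, ← mul_sub, abs_mul, abs_of_nonneg (by positivity : 0 ≤ c ^ 4)]
  have a1 := intervalIntegral.integral_add_adjacent_intervals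
    (ii (show 0 < c * a by positivity) ha) (ii ha hb)
  have a2 := intervalIntegral.integral_add_adjacent_intervals
    (ii (show 0 < c * a by positivity) hb) (ii hb (show 0 < c * b by positivity))
  have key : ∀ x : ℝ, 0 < x → |∫ y in (c * x)..x, U4 w y / y ^ 5| ≤ S / 6 := by
    intro x hx
    rcases le_total c 1 with h | h
    · refine (short4 hS (by positivity) (by nlinarith)).trans ?_
      have : (x - c * x) / (c * x) ≤ 1 := by
        rw [div_le_one (by positivity)]
        nlinarith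
      nlinarith
    · rw [intervalIntegral.integral_symm, abs_neg]
      refine (short4 hS hx (by nlinarith)).trans ?_
      have : (c * x - x) / x ≤ 2 := by
        rw [div_le_iff₀ hx]
        nlinarith
      nlinarith
  have k1 := key a ha
  have k2 := key b hb
  rw [intervalIntegral.integral_symm] at k2
  rw [abs_neg] at k2
  have e : (∫ y in (c * a)..(c * b), U4 w y / y ^ 5) - ∫ y in a..b, U4 w y / y ^ 5
      = (∫ y in (c * a)..a, U4 w y / y ^ 5) + ∫ y in b..(c * b), U4 w y / y ^ 5 := by linarith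
  rw [e]
  have h4 : c ^ 4 ≤ 81 := by
    calc c ^ 4 ≤ 3 ^ 4 := by gcongr
      _ = 81 := by norm_num
  calc _ ≤ 81 * (S / 6 + S / 6) := by
        refine mul_le_mul h4 ((abs_add_le _ _).trans (add_le_add k1 k2)) (abs_nonneg _)
          (by norm_num)
    _ = 27 * S := by ring

/-- the integral of the difference of the single scale forms -/
lemma int_diff (hw : Continuous w) {S : ℝ} (hS : ∀ u, |w u| ≤ S) {a b : ℝ} (ha : 0 < a)
    (hb : 0 < b) :
    |(∫ t in a..b, (A4 w 1 t - A4 w (-1) t) / t) + ∫ y in a..b, U4 w y / y ^ 5| ≤ 5670 * S := by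
  have hS0 : 0 ≤ S := (abs_nonneg _).trans (hS 0)
  have hU := U4_cont hw
  have e : (∫ t in a..b, (A4 w 1 t - A4 w (-1) t) / t) = ∫ t in a..b, (U4 w (3 * t) / t ^ 5
      - 8 * (U4 w (5 / 2 * t) / t ^ 5) + 28 * (U4 w (2 * t) / t ^ 5)
      - 56 * (U4 w (3 / 2 * t) / t ^ 5) + 69 * (U4 w (1 * t) / t ^ 5)
      - 48 * (U4 w (1 / 2 * t) / t ^ 5)) := by
    refine intervalIntegral.integral_congr fun t ht => ?_
    have ht0 : 0 < t := lt_of_lt_of_le (lt_min ha hb) ht.1
    show (A4 w 1 t - A4 w (-1) t) / t = _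
    rw [A4_diff hw ht0.ne']
    field_simp
  have ii : ∀ c : ℝ, IntervalIntegrable (fun t => U4 w (c * t) / t ^ 5) volume a b :=
    fun c => ii_div (by fun_prop) 5 ha hb
  rw [e, intervalIntegral.integral_sub (((((ii 3).sub ((ii (5 / 2)).const_mul 8)).add
      ((ii 2).const_mul 28)).sub ((ii (3 / 2)).const_mul 56)).add ((ii 1).const_mul 69))
      ((ii (1 / 2)).const_mul 48),
    intervalIntegral.integral_add ((((ii 3).sub ((ii (5 / 2)).const_mul 8)).add
      ((ii 2).const_mul 28)).sub ((ii (3 / 2)).const_mul 56)) ((ii 1).const_mul 69),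
    intervalIntegral.integral_sub (((ii 3).sub ((ii (5 / 2)).const_mul 8)).add
      ((ii 2).const_mul 28)) ((ii (3 / 2)).const_mul 56),
    intervalIntegral.integral_add ((ii 3).sub ((ii (5 / 2)).const_mul 8)) ((ii 2).const_mul 28),
    intervalIntegral.integral_sub (ii 3) ((ii (5 / 2)).const_mul 8)]
  simp only [intervalIntegral.integral_const_mul]
  have h1 := dil hw hS ha hb (c := 3) (by norm_num) (by norm_num)
  have h2 := dil hw hS ha hb (c := 5 / 2) (by norm_num) (by norm_num)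
  have h3 := dil hw hS ha hb (c := 2) (by norm_num) (by norm_num)
  have h4 := dil hw hS ha hb (c := 3 / 2) (by norm_num) (by norm_num)
  have h6 := dil hw hS ha hb (c := 1 / 2) (by norm_num) (by norm_num)
  rw [abs_le] at *
  simp only [one_mul]
  norm_num at h1 h2 h3 h4 h6 ⊢
  constructor <;> linarith [h1.1, h1.2, h2.1, h2.2, h3.1, h3.2, h4.1, h4.2, h6.1, h6.2]

lemma A4_ii (hw : Continuous w) {o : ℝ} {a b : ℝ} (ha : 0 < a) (hb : 0 < b) :
    IntervalIntegrable (fun t => A4 w o t / t) volume a b := by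
  have hV : Continuous (V4 w) := prim_cont (prim_cont (prim_cont (prim_cont hw)))
  refine ContinuousOn.intervalIntegrable ?_
  have h : ContinuousOn (fun t => Dt t (Dt t (Dt t (Dt t (V4 w)))) (t * (o - 2)) / t)
      (Set.uIcc a b) := by
    simp only [Dt]
    have h0 : ∀ y ∈ Set.uIcc a b, y ≠ 0 := fun y hy => (lt_of_lt_of_le (lt_min ha hb) hy.1).ne'
    fun_prop (disch := assumption)
  refine h.congr fun t ht => ?_
  have ht0 : 0 < t := lt_of_lt_of_le (lt_min ha hb) ht.1
  simp only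
  rw [A4_eq_Dt hw o ht0.ne']

/-- the dyadic decomposition, `n` scales -/
lemma dyadic4 (hw : Continuous w) {o K : ℝ} {n : ℕ}
    (hK : ∀ η : ℝ, 0 < η → ∑ k ∈ Finset.Icc 1 n, |A4 w o (2 ^ k * η)| ≤ K)
    {a b : ℝ} (ha : 0 < a) (hab : a ≤ b) (hn : b ≤ 2 ^ n * a) : |∫ t in a..b, A4 w o t / t| ≤ K := by
  have hb : 0 < b := ha.trans_le hab
  set g : ℝ → ℝ := fun t => |A4 w o t / t| with hg
  have hgi : ∀ {a b : ℝ}, 0 < a → 0 < b → IntervalIntegrable g volume a b :=
    fun ha hb => (A4_ii hw ha hb).abs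
  have h1 : |∫ t in a..b, A4 w o t / t| ≤ ∫ t in a..b, g t :=
    intervalIntegral.abs_integral_le_integral_abs hab
  have h2 : (∫ t in a..b, g t) ≤ ∫ t in a..(2 ^ n * a), g t := by
    rw [← intervalIntegral.integral_add_adjacent_intervals (hgi ha hb)
      (hgi hb (hb.trans_le hn))]
    have : 0 ≤ ∫ t in b..(2 ^ n * a), g t :=
      intervalIntegral.integral_nonneg hn fun t _ => abs_nonneg _
    linarith
  have h3 : (∫ t in a..(2 ^ n * a), g t)
      = ∑ j ∈ Finset.range n, ∫ t in (2 ^ j * a)..(2 ^ (j + 1) * a), g t := by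
    rw [intervalIntegral.sum_integral_adjacent_intervals (a := fun j => (2 : ℝ) ^ j * a)
      (fun k _ => hgi (by positivity) (by positivity))]
    norm_num
  have h4 : ∀ j : ℕ, (∫ t in (2 ^ j * a)..(2 ^ (j + 1) * a), g t)
      = ∫ t in a..(2 * a), |A4 w o (2 ^ j * t)| / t := by
    intro j
    have h := intervalIntegral.integral_comp_mul_left (a := a) (b := 2 * a) g
      (show (2 : ℝ) ^ j ≠ 0 by positivity)
    have e : (∫ t in a..(2 * a), |A4 w o (2 ^ j * t)| / t)
        = ∫ t in a..(2 * a), 2 ^ j * g (2 ^ j * t) := by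
      refine intervalIntegral.integral_congr fun t ht => ?_
      rw [Set.uIcc_of_le (by linarith)] at ht
      have ht0 : 0 < t := ha.trans_le ht.1
      show |A4 w o (2 ^ j * t)| / t = 2 ^ j * |A4 w o (2 ^ j * t) / (2 ^ j * t)|
      rw [abs_div, abs_of_pos (show 0 < 2 ^ j * t by positivity)]
      field_simp
    rw [e, intervalIntegral.integral_const_mul, h, smul_eq_mul, ← mul_assoc,
      mul_inv_cancel₀ (by positivity), one_mul]
    ring_nf
  have i4 : ∀ j : ℕ, IntervalIntegrable (fun t => |A4 w o (2 ^ j * t)| / t) volume a (2 * a) := by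
    intro j
    have h : IntervalIntegrable (fun t => A4 w o (2 ^ j * t) / (2 ^ j * t)) volume a (2 * a) := by
      have := (A4_ii hw (o := o) (a := 2 ^ j * a) (b := 2 ^ j * (2 * a)) (by positivity)
        (by positivity)).comp_mul_left (c := (2 : ℝ) ^ j)
      simpa [mul_div_cancel_left₀] using this
    refine ((h.abs).const_mul ((2 : ℝ) ^ j)).congr_ae ?_
    filter_upwards [ae_restrict_mem measurableSet_uIoc] with t ht
    rw [Set.uIoc_of_le (by linarith)] at ht
    have ht0 : 0 < t := ha.trans ht.1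
    rw [abs_div, abs_of_pos (show 0 < 2 ^ j * t by positivity)]
    field_simp
  have hK0 : 0 ≤ K := le_trans (Finset.sum_nonneg fun _ _ => abs_nonneg _) (hK 1 one_pos)
  have h5 : (∑ j ∈ Finset.range n, ∫ t in a..(2 * a), |A4 w o (2 ^ j * t)| / t)
      ≤ ∫ _ in a..(2 * a), K / a := by
    rw [← intervalIntegral.integral_finsetSum (fun j _ => i4 j)]
    have isum : IntervalIntegrable (fun t => ∑ j ∈ Finset.range n,
        |A4 w o (2 ^ j * t)| / t) volume a (2 * a) := by
      have := IntervalIntegrable.sum (Finset.range n) (fun j _ => i4 j)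
      refine this.congr_ae (ae_of_all _ fun t => ?_)
      simp only [Finset.sum_apply]
    refine intervalIntegral.integral_mono_on (by linarith) isum intervalIntegrable_const
      fun t ht => ?_
    have ht0 : 0 < t := ha.trans_le ht.1
    rw [← Finset.sum_div]
    refine div_le_div₀ hK0 ?_ ha ht.1
    refine le_trans (le_of_eq ?_) (hK (t / 2) (by positivity))
    have e1 : Finset.Icc 1 n = Finset.Ico (0 + 1) (n + 1) := by
      ext x
      simp only [Finset.mem_Icc, Finset.mem_Ico]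
      omega
    rw [e1, ← Finset.sum_Ico_add' (fun k => |A4 w o (2 ^ k * (t / 2))|) 0 n 1, Finset.range_eq_Ico]
    refine Finset.sum_congr rfl fun j _ => ?_
    rw [show (2 : ℝ) ^ (j + 1) * (t / 2) = 2 ^ j * t by rw [pow_succ]; ring]
  have h6 : (∫ _ in a..(2 * a), K / a) = K := by
    rw [intervalIntegral.integral_const, smul_eq_mul]
    field_simp
    ring
  calc |∫ t in a..b, A4 w o t / t| ≤ ∫ t in a..b, g t := h1
    _ ≤ ∫ t in a..(2 ^ n * a), g t := h2
    _ = ∑ j ∈ Finset.range n, ∫ t in a..(2 * a), |A4 w o (2 ^ j * t)| / t := by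
        rw [h3]; exact Finset.sum_congr rfl fun j _ => h4 j
    _ ≤ K := h6 ▸ h5

end

/-- **[b4]** from the single scale forms of `n` scales to the truncated kernel -/
def StCal4 : Prop := ∃ C : ℝ, ∀ (w : ℝ → ℝ), Continuous w → ∀ (S K : ℝ), (∀ u, |w u| ≤ S) → ∀ n : ℕ,
  (∀ η : ℝ, 0 < η → ∑ k ∈ Finset.Icc 1 n, |A4 w 1 (2 ^ k * η)| ≤ K) →
  (∀ η : ℝ, 0 < η → ∑ k ∈ Finset.Icc 1 n, |A4 w (-1) (2 ^ k * η)| ≤ K) →
  ∀ ε R : ℝ, 0 < ε → ε < R → R ≤ 2 ^ n * ε → |∫ u in ε..R, (w u - w (-u)) / u| ≤ C * (K + S)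

theorem cal4 : StCal4 := by
  refine ⟨200000, fun w hw S K hS n hK hK' ε R hε hεR hn => ?_⟩
  have hR : 0 < R := hε.trans hεR
  have hS0 : 0 ≤ S := (abs_nonneg _).trans (hS 0)
  have hK0 : 0 ≤ K := le_trans (Finset.sum_nonneg fun _ _ => abs_nonneg _) (hK 1 one_pos)
  have hA := dyadic4 hw hK hε hεR.le hn
  have hB := dyadic4 hw hK' hε hεR.le hn
  have hD := int_diff hw hS hε hR
  have e : (∫ t in ε..R, (A4 w 1 t - A4 w (-1) t) / t) =
      (∫ t in ε..R, A4 w 1 t / t) - ∫ t in ε..R, A4 w (-1) t / t := by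
    rw [← intervalIntegral.integral_sub (A4_ii hw hε hR) (A4_ii hw hε hR)]
    exact intervalIntegral.integral_congr fun t _ => sub_div _ _ _
  rw [e] at hD
  have hp := parts4 hw hε hR
  have q : ∀ y : ℝ, 0 < y → |6 * U4 w y / y ^ 4 + 2 * U3 w y / y ^ 3 + prim (prim (od w)) y / y ^ 2
      + prim (od w) y / y| ≤ 25 / 6 * S := by
    intro y hy
    have k0 : |6 * U4 w y / y ^ 4| ≤ 1 / 2 * S := by
      rw [abs_div, abs_mul, abs_of_pos (by positivity : 0 < y ^ 4), div_le_iff₀ (by positivity),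
        abs_of_pos (by norm_num : (0 : ℝ) < 6)]
      have := U4_bound hS hy.le
      linarith
    have k1 : |2 * U3 w y / y ^ 3| ≤ 2 / 3 * S := by
      rw [abs_div, abs_mul, abs_of_pos (by positivity : 0 < y ^ 3), div_le_iff₀ (by positivity),
        abs_of_pos (by norm_num : (0 : ℝ) < 2)]
      have := U3_bound hS hy.le
      linarith
    have k2 : |prim (prim (od w)) y / y ^ 2| ≤ S := by
      rw [abs_div, abs_of_pos (by positivity : 0 < y ^ 2), div_le_iff₀ (by positivity)]
      exact U2_bound hS hy.le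
    have k3 : |prim (od w) y / y| ≤ 2 * S := by
      rw [abs_div, abs_of_pos hy, div_le_iff₀ hy]
      exact U1_bound hS hy.le
    rw [abs_le] at *
    constructor <;> linarith [k0.1, k0.2, k1.1, k1.2, k2.1, k2.2, k3.1, k3.2]
  have q1 := q R hR
  have q2 := q ε hε
  have e0 : (∫ u in ε..R, (w u - w (-u)) / u) = ∫ y in ε..R, od w y / y := rfl
  rw [e0]
  rw [abs_le] at *
  constructor <;> linarith [hA.1, hA.2, hB.1, hB.2, hD.1, hD.2, q1.1, q1.2, q2.1, q2.2]

end Vale.Agent.P141.PL.H245
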